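import Vale.Agent.P354CB.Ez

/-!
The key lemma: a common development with a corresponding boundary point extends.
-/

open scoped ContDiff
open Set Filter Topology Metric

namespace Vale.Agent.P354CB9

open Vale.Agent.P354n Vale.Agent.P354CB
open Vale.Agent.P354I (X)
open Vale.Agent.P354XJ

variable {M : Spc} {S U V : Set M.pt}

/-- A point of the boundary of U with a spacelike supporting level set. -/
theorem touch (Z : L0) (hT : KT) (h : GH0 M S) (hU : IsOpen U) {q : M.pt} (qU : q ∉ U)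
    (hm : ∀ x, Le M x q → x ∉ Pa M S → x ≠ q → x ∈ U) (hV : V ∈ 𝓝 q) (VF : V ⊆ Fu M S) :
    ∃ (e : M.Chart) (z : R4) (f : R4 → ℝ), z ∈ tgt e ∧ inv e z ∈ V ∧ inv e z ∉ U ∧
      ContDiff ℝ ∞ f ∧ ConvexOn ℝ univ f ∧ Tm e f z ∧ ∀ᶠ x in 𝓝 z, f x < f z → inv e x ∈ U := by
  have G := Z.l2.g1 M S h
  obtain ⟨e, he⟩ : ∃ e, On e q := M.cover q
  obtain ⟨r1, L, c, nb1⟩ := Z.l1.nb M h.st e _ (co_mem he)
  have hv : inv e ⁻¹' V ∈ 𝓝 (co e q) := inv_cont (co_mem he) (by rwa [inv_co he])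
  obtain ⟨r2, r20, hr2⟩ := nhds_basis_closedBall.mem_iff.1 hv
  have nb := nb1.mono (lt_min nb1.r0 r20) (min_le_left r1 r2)
  have bV : ∀ z ∈ closedBall (co e q) (min r1 r2), inv e z ∈ V := fun z hz =>
    hr2 (closedBall_subset_closedBall (min_le_right _ _) hz)
  have ci : ContinuousOn (inv e) (tgt e) := fun z hz => (inv_cont hz).continuousWithinAt
  obtain ⟨z, z1, z2, f, f1, f2, f3, f4⟩ := hT M h.st e _ _ L c _ nb
    (closedBall (co e q) (min r1 r2) ∩ (fun z => (inv e z, q)) ⁻¹'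
      {s : M.pt × M.pt | s.1 ∉ Pa M S ∧ Le M s.1 s.2}) (tgt e ∩ inv e ⁻¹' U)
    (((ci.mono nb.sub).prodMk continuousOn_const).preimage_isClosed_of_isClosed isClosed_closedBall
      (Z.l2.g2 M S h).cl)
    (ci.isOpen_inter_preimage (isOpen_tgt e) hU)
    ⟨mem_closedBall_self nb.r0.le, Z.l1.fu_pa h.st G (VF (bV _ (mem_closedBall_self nb.r0.le))),
      by simpa only [inv_co he] using Le.rfl⟩
    (fun k => qU (by simpa only [mem_preimage, inv_co he] using k.2))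
    (fun z k l n => ⟨nb.sub l, hm _ k.2.2 k.2.1 fun m => n (by rw [← m, co_inv (nb.sub l)])⟩)
    fun z k l a a1 a2 => by
      have t : Tendsto (fun s : ℝ => z - s • a) (𝓝[>] 0) (𝓝 z) :=
        (Continuous.tendsto' (by fun_prop) 0 z (by simp)).mono_left nhdsWithin_le_nhds
      filter_upwards [Z.l1.b.ray h.st (nb.sub k.1) a1 a2, t.eventually (isOpen_ball.mem_nhds l)]
        with s s1 s2
      exact ⟨ball_subset_closedBall s2, Z.l1.fu_pa h.st G (VF (bV _ (ball_subset_closedBall s2))),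
        (Z.l1.le h.st s1.1).trans k.2.2⟩
  have zt := nb.sub (ball_subset_closedBall z1)
  exact ⟨e, z, f, zt, bV _ (ball_subset_closedBall z1), fun k => z2 ⟨zt, k⟩, f1, f2, f3,
    f4.mono fun _ k l => (k l).2⟩

/-- **KEY0.** -/
theorem key0 (Z : L0) (h0 : KA0) (h1 : KA1) (h2 : KA2) (hT : KT) (hT2 : KT2) (hH : KH) (hJ : KJ)
    (hS : KS) : KEY0 := by
  intro M N S S' U ψ φ h p p' hp pU pP
  have sM := h.gM.st
  have sN := h.gN.st
  have G := Z.l2.g1 M S h.gM.toGH0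
  have lm : ∀ x ∈ U, LM ψ x := fun x k => (h.lm x k).1
  obtain ⟨q, q', hq, qU, qF, hm⟩ := h1 M N S S' U ψ φ h p p' hp pU
    (((G.tri p).resolve_left fun k => pU (h0 M N S S' U ψ φ h p p' hp k)).resolve_right pP)
  obtain ⟨e', he'⟩ : ∃ e', On e' q' := N.cover q'
  obtain ⟨r, L, c, nb⟩ := Z.l1.nb N sN e' _ (co_mem he')
  have ev : ∀ᶠ z in 𝓝[U] q, On e' (ψ z) ∧ co e' (ψ z) ∈ closedBall (co e' q') r :=
    (h2 M N S S' U ψ φ h q q' hq qF).eventually
      ((on_nhds he').and (co_cont he' (closedBall_mem_nhds _ nb.r0)))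
  obtain ⟨V, V1, V2, V3⟩ := eventually_nhds_iff.1
    ((eventually_nhdsWithin_iff.1 ev).and ((Z.l1.opFu sM S).mem_nhds qF))
  have dn : ∀ x ∈ U, ∀ w ∈ V, LL M w x → w ∈ U := fun x k w l n =>
    h.hU.dn x k w n (Z.l1.fu_pa sM G (V1 w l).2)
  obtain ⟨e, z, f, zt, zV, zU, f1, f2, f3, f4⟩ := touch Z hT h.gM.toGH0 h.hU.op qU hm
    (V2.mem_nhds V3) fun x k => (V1 x k).2
  obtain ⟨y, y0⟩ := exists_ne (0 : X)
  obtain ⟨J, J1, rfl, J3, J4⟩ := hT2 M sM e z zt f f1 f3 y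
  have tJ : Tendsto J (𝓝[≠] y) (𝓝 (J y)) := J1.continuous.continuousAt.mono_left nhdsWithin_le_nhds
  have tI : Tendsto (fun x => inv e (J x)) (𝓝[≠] y) (𝓝 (inv e (J y))) := (inv_cont zt).tendsto.comp tJ
  have sl : ∀ᶠ x in 𝓝[≠] y, inv e (J x) ∈ U := by
    filter_upwards [tJ.eventually f4, J4] with x k l using k l
  obtain ⟨C, hC⟩ := hJ M N sM sN U ψ h.hU.op lm e' _ r L c _ nb _ (mem_closure_of_tendsto tI sl) V
    (V2.mem_nhds zV) (fun x k l => (V1 x l).1 k) dn e (inv_mem zt)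
  rw [co_inv zt] at hC
  obtain ⟨χ, χ1, χ2⟩ := hS M N sM sN U ψ h.hU.op lm e e' J y _ C y0 J1 zt J3
    (isCompact_closedBall _ _) nb.sub (by
      filter_upwards [sl, tI.eventually (V2.mem_nhds zV), tJ.eventually hC] with x k l n
      exact ⟨k, ((V1 _ l).1 k).1, ((V1 _ l).1 k).2, n k⟩)
  obtain ⟨D, D1, D2, D3, D4, D5⟩ := hH M sM e _ zt f f1 f2 f3 U f4 ({x | LM χ x} ∩ V)
    (inter_mem χ1 (V2.mem_nhds zV)) fun x k w l => dn x k w l.2
  obtain ⟨x, x1, x2, x3⟩ := ((tI.eventually (D2.mem_nhds D3)).and (sl.and χ2)).exists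
  refine ⟨D, χ, D2, ⟨h.hU.op.union D2, fun a k w l n => ?_, fun a k w l n => ?_⟩,
    fun a k => (V1 a (D1 k).2).2, fun k => zU (k D3), fun a k => (D1 k).1,
    Z.k2.rig sM sN (D2.inter h.hU.op) (fun a k => ⟨(D1 k.1).1, lm a k.2⟩) Subset.rfl D4 ⟨x1, x2⟩ x3⟩
  · rcases k with k | k
    · exact Or.inl (h.hU.dn a k w l n)
    rcases D5 a k w l with m | m | ⟨u, m, m'⟩
    · exact Or.inr m
    · exact Or.inl m
    · exact Or.inl (h.hU.dn u m w m' n)
  · rcases k with k | k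
    · exact Or.inl (h.hU.up a k w l n)
    · exact absurd (Z.l1.fu_up sM (V1 a (D1 k).2).2 l) n

end Vale.Agent.P354CB9
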